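import Vale.Agent.P141.H43.RpX
import Vale.Agent.P141.H408.SkelTI
import Vale.Agent.P141.H581.StageY

/-!
# P141, line (A): the labelled node forms in matrix form, functions depending on the node

Letters of `H408` : `A z y`, `B x y`, `C z x` functions at the node `m = (m3, m2, m1)` of scale
`k`, labels `κ` on `x`. `nA nB nC` : the matrices of the scale `k + L`, labels = last `L` digits.

* `phi_iso`, `tr_iso` : saturation and pair functional under an isometry;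
* `M2_y`, `M2_x`, `M2_z` : the pair functionals at the three hubs are `rAB`, `rBC`, `rCA`;
* `cap_y`, `cap_x`, `cap_z` : the caps;
* `nf3_node` : the node form.
-/

namespace Vale.Agent.P141.H178

open Finset Matrix Vale.Agent.P075 Vale.Agent.P141.PL
open Vale.Agent.P141.PL.H588 (hd Xg smp)
open Vale.Agent.P141.PL.H804 (bx3 bl M2)
open Vale.Agent.P141.H958 (lbs encR dup dup_apply)
open Vale.Agent.P141.H338 (cu lf)
open Vale.Agent.P141.H536 (TE TE_iso mx DE DE_iso hL hL_symm hd_TE bl_enc gram_enc DE_mul DE_apply)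
open Vale.Agent.P141.H103 (QW)
open Vale.Agent.P141.H585.PairCh (phs)
open Vale.Agent.P141.H408 (rAB rBC rCA QL hdL)
open Vale.Agent.P141.H677 (nf3)

noncomputable section

set_option linter.unusedSectionVars false

/-! ### Isometries -/

section iso

variable {m n : Type*} [Fintype m] [DecidableEq m] [Fintype n] [DecidableEq n]

theorem phi_iso {T : Matrix m n ℝ} (hT : Tᵀ * T = 1) {X : Matrix n n ℝ} (hX : X.PosSemidef) :
    phi (T * X * Tᵀ) = T * phi X * Tᵀ := by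
  have hY : (T * X * Tᵀ).PosSemidef := psd_conj hX T
  have h1 : (1 + T * X * Tᵀ) * (1 - T * phi X * Tᵀ) = 1 := by
    have h2 : T * X * Tᵀ * (T * phi X * Tᵀ) = T * (X * phi X) * Tᵀ := by
      rw [show T * X * Tᵀ * (T * phi X * Tᵀ) = T * X * (Tᵀ * T) * phi X * Tᵀ by
        simp only [Matrix.mul_assoc], hT, Matrix.mul_one]
      simp only [Matrix.mul_assoc]
    have h3 : X * phi X = X - phi X := by
      have := mul_res hX
      rw [phi, Matrix.mul_sub, Matrix.mul_one, this]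
    rw [Matrix.add_mul, Matrix.one_mul, Matrix.mul_sub, Matrix.mul_one, h2, h3, Matrix.mul_sub,
      Matrix.sub_mul]
    abel
  have h4 : res (T * X * Tᵀ) = 1 - T * phi X * Tᵀ := by
    rw [res]
    exact Matrix.inv_eq_right_inv h1
  rw [phi, h4]
  abel

theorem tr_iso {T : Matrix m n ℝ} (hT : Tᵀ * T = 1) {h' : Matrix m m ℝ} {h : Matrix n n ℝ}
    (hs' : h'ᵀ = h') (hs : hᵀ = h) (hh : h' * T = T * h) {X Y : Matrix n n ℝ}
    (hX : X.PosSemidef) (hY : Y.PosSemidef) :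
    (phi (T * X * Tᵀ) * (h' * phi (T * Y * Tᵀ) * h')).trace =
      (phi X * (h * phi Y * h)).trace := by
  rw [phi_iso hT hX, phi_iso hT hY]
  set P := phi X
  set Q := phi Y
  have h1 : h' * (T * Q * Tᵀ) * h' = T * (h * Q * h) * Tᵀ := by
    have h2 : Tᵀ * h' = h * Tᵀ := by
      have h3 := congrArg Matrix.transpose hh
      rwa [transpose_mul, transpose_mul, hs', hs] at h3
    calc h' * (T * Q * Tᵀ) * h' = (h' * T) * Q * (Tᵀ * h') := by simp only [Matrix.mul_assoc]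
      _ = _ := by rw [h2, hh]; simp only [Matrix.mul_assoc]
  rw [h1]
  calc (T * P * Tᵀ * (T * (h * Q * h) * Tᵀ)).trace
      = (T * (P * (Tᵀ * T) * (h * Q * h)) * Tᵀ).trace := by simp only [Matrix.mul_assoc]
    _ = (T * (P * (h * Q * h)) * Tᵀ).trace := by rw [hT, Matrix.mul_one]
    _ = (Tᵀ * (T * (P * (h * Q * h)))).trace := trace_mul_comm _ _
    _ = _ := by rw [← Matrix.mul_assoc, hT, Matrix.one_mul]

/-- `T Tᵀ ≤ 1` -/
theorem iso_le {T : Matrix m n ℝ} (hT : Tᵀ * T = 1) : (1 - T * Tᵀ).PosSemidef := by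
  have e : 1 - T * Tᵀ = (1 - T * Tᵀ) * (1 - T * Tᵀ)ᵀ := by
    rw [transpose_sub, transpose_one, transpose_mul, transpose_transpose, Matrix.mul_sub,
      Matrix.mul_one, Matrix.sub_mul, Matrix.one_mul,
      show T * Tᵀ * (T * Tᵀ) = T * (Tᵀ * T) * Tᵀ by simp only [Matrix.mul_assoc], hT,
      Matrix.mul_one]
    abel
  rw [e]
  have h := psd_conj (PosSemidef.one (n := m) (R := ℝ)) (1 - T * Tᵀ)
  rwa [Matrix.mul_one] at h

/-- a cap under an isometry -/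
theorem cap_iso {T : Matrix m n ℝ} (hT : Tᵀ * T = 1) {X : Matrix n n ℝ}
    (hX : (1 - X).PosSemidef) : (1 - T * X * Tᵀ).PosSemidef := by
  have h := (iso_le hT).add (psd_conj hX T)
  have e : 1 - T * Tᵀ + T * (1 - X) * Tᵀ = 1 - T * X * Tᵀ := by
    rw [Matrix.mul_sub, Matrix.mul_one, Matrix.sub_mul]
    abel
  rwa [e] at h

/-- the cap of the other Gram matrix -/
theorem cap_flip {F : Matrix m n ℝ} {μ : ℝ} (hμ : 0 ≤ μ)
    (h : (1 - μ • (F * Fᵀ)).PosSemidef) : (1 - μ • (Fᵀ * F)).PosSemidef := by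
  refine PosSemidef.of_dotProduct_mulVec_nonneg ?_ fun v => ?_
  · change _ᴴ = _
    rw [conjTranspose_eq_transpose_of_trivial]
    simp
  · rw [star_trivial, Matrix.sub_mulVec, dotProduct_sub, smul_mulVec, one_mulVec,
      dotProduct_smul, ← mulVec_mulVec, dotProduct_mulVec, vecMul_transpose, smul_eq_mul]
    obtain ⟨w, hw⟩ : ∃ w : m → ℝ, w = F *ᵥ v := ⟨_, rfl⟩
    obtain ⟨z, hz⟩ : ∃ z : n → ℝ, z = Fᵀ *ᵥ w := ⟨_, rfl⟩
    rw [← hw]
    have h1 := h.dotProduct_mulVec_nonneg w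
    have e1 : w ⬝ᵥ F *ᵥ (Fᵀ *ᵥ w) = z ⬝ᵥ z := by
      rw [dotProduct_mulVec, ← mulVec_transpose, ← hz]
    rw [star_trivial, Matrix.sub_mulVec, dotProduct_sub, smul_mulVec, one_mulVec,
      dotProduct_smul, ← mulVec_mulVec, e1, smul_eq_mul] at h1
    have h2 : w ⬝ᵥ w = z ⬝ᵥ v := by
      calc w ⬝ᵥ w = w ⬝ᵥ F *ᵥ v := by rw [← hw]
        _ = z ⬝ᵥ v := by rw [dotProduct_mulVec, ← mulVec_transpose, ← hz]
    have h3 : (z ⬝ᵥ v) ^ 2 ≤ (z ⬝ᵥ z) * (v ⬝ᵥ v) := by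
      have := sum_mul_sq_le_sq_mul_sq univ z v
      unfold dotProduct
      simp only [← pow_two]
      exact this
    have hw0 : 0 ≤ w ⬝ᵥ w := H922.dot_self_nonneg w
    have hv0 : 0 ≤ v ⬝ᵥ v := H922.dot_self_nonneg v
    rcases hw0.eq_or_lt with h0 | h0
    · rw [← h0]; linarith
    · rw [← h2] at h3
      have h4 : (w ⬝ᵥ w) * (μ * (w ⬝ᵥ w)) ≤ (w ⬝ᵥ w) * (v ⬝ᵥ v) := by
        calc (w ⬝ᵥ w) * (μ * (w ⬝ᵥ w)) = μ * (w ⬝ᵥ w) ^ 2 := by ring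
          _ ≤ μ * ((z ⬝ᵥ z) * (v ⬝ᵥ v)) := mul_le_mul_of_nonneg_left h3 hμ
          _ = (μ * (z ⬝ᵥ z)) * (v ⬝ᵥ v) := by ring
          _ ≤ (w ⬝ᵥ w) * (v ⬝ᵥ v) := mul_le_mul_of_nonneg_right (by linarith) hv0
      have := le_of_mul_le_mul_left h4 h0
      linarith

end iso

/-! ### Positions without labels -/

/-- the isometry of the positions -/
def DI (L k : ℕ) : Matrix (Ix (k + L)) (Ix k) ℝ := (√((2 : ℝ) ^ L))⁻¹ • DE L k

theorem DI_iso (L k : ℕ) : (DI L k)ᵀ * DI L k = 1 := by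
  unfold DI
  rw [transpose_smul, Matrix.smul_mul, Matrix.mul_smul, DE_iso, smul_smul, smul_smul]
  have h : √((2 : ℝ) ^ L) * √((2 : ℝ) ^ L) = 2 ^ L := H536.two_pow_sqrt L
  have h0 : √((2 : ℝ) ^ L) ≠ 0 := (Real.sqrt_pos.2 (by positivity)).ne'
  have e : (√((2 : ℝ) ^ L))⁻¹ * (√((2 : ℝ) ^ L))⁻¹ * 2 ^ L = 1 := by
    generalize √((2 : ℝ) ^ L) = q at h h0
    rw [← h]
    field_simp
  rw [e, one_smul]

theorem hd_DE {L k : ℕ} (hk : 1 ≤ k) : hd (k + L) * DE L k = DE L k * hd k := by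
  ext i p
  rw [H536.hd_diag (by omega), H536.hd_diag hk, Matrix.diagonal_mul, Matrix.mul_diagonal, DE_apply]
  by_cases h : H536.dp k L i = p
  · rw [if_pos h, mul_one, one_mul, H958.hs_add hk]
    have a1 := H536.ix_pos k L 0 i
    simp only [mul_zero, zero_add] at a1
    rw [a1, h]
  · rw [if_neg h, mul_zero, zero_mul]

theorem hd_DI {L k : ℕ} (hk : 1 ≤ k) : hd (k + L) * DI L k = DI L k * hd k := by
  unfold DI
  rw [Matrix.mul_smul, hd_DE hk, Matrix.smul_mul]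

theorem mul_DEt {L : ℕ} (k : ℕ) {α : Type*} (M : Matrix α (Ix k) ℝ) (a : α) (i : Ix (k + L)) :
    (M * (DE L k)ᵀ) a i = M a (H536.dp k L i) := by
  rw [Matrix.mul_apply]
  simp only [Matrix.transpose_apply, DE_apply, mul_ite, mul_one, mul_zero]
  rw [Finset.sum_ite_eq]
  simp

/-- the block of a function without labels -/
theorem bl_dup (L k : ℕ) (A : ℤ → ℤ → ℝ) (n m : ℤ) :
    bl (k + L) (dup L A) n m = DE L k * bl k A n m * (DE L k)ᵀ := by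
  ext i i'
  rw [mul_DEt, DE_mul]
  change dup L A (2 ^ (k + L) * n + val (k + L) i) (2 ^ (k + L) * m + val (k + L) i') = _
  rw [dup_apply, H536.ix_pos, H536.ix_pos]
  rfl

theorem DE_DI (L k : ℕ) : DE L k = √((2 : ℝ) ^ L) • DI L k := by
  unfold DI
  rw [smul_smul, mul_inv_cancel₀ (Real.sqrt_pos.2 (by positivity)).ne', one_smul]

theorem four_sqrt (L : ℕ) : √((2 : ℝ) ^ L) * √(2 ^ L) * (√(2 ^ L) * √(2 ^ L)) = 4 ^ L := by
  rw [H536.two_pow_sqrt, ← mul_pow]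
  norm_num

/-- `bl (dup A) = 2 ^ L D A Dᵀ` -/
theorem bl_dup' (L k : ℕ) (A : ℤ → ℤ → ℝ) (n m : ℤ) :
    bl (k + L) (dup L A) n m = (2 ^ L : ℝ) • (DI L k * bl k A n m * (DI L k)ᵀ) := by
  rw [bl_dup, DE_DI]
  simp only [transpose_smul, Matrix.smul_mul, Matrix.mul_smul, smul_smul]
  rw [H536.two_pow_sqrt]

variable {κ : Type*} [Fintype κ] [DecidableEq κ] {L : ℕ} {e : κ → ℤ}

/-- `bl (encR f) = 2 ^ L D f Tᵀ` -/
theorem bl_enc' (k : ℕ) (f : κ → ℤ → ℤ → ℝ) (n m : ℤ) :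
    bl (k + L) (encR L (lf e f)) n m = (2 ^ L : ℝ) • (DI L k * mx k f n m * (TE L e k)ᵀ) := by
  rw [bl_enc, DE_DI]
  simp only [Matrix.smul_mul, smul_smul]
  rw [H536.two_pow_sqrt]

theorem smul_gram {m n : Type*} [Fintype m] [DecidableEq m] [Fintype n] [DecidableEq n]
    (c : ℝ) (F : Matrix m n ℝ) : (c • F)ᵀ * (c • F) = (c * c) • (Fᵀ * F) := by
  rw [transpose_smul, Matrix.smul_mul, Matrix.mul_smul, smul_smul]

theorem four_two (L : ℕ) : (2 : ℝ) ^ L * 2 ^ L = 4 ^ L := by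
  rw [← mul_pow]
  norm_num

/-- a Gram matrix between two isometries -/
theorem gram_iso {a b c d : Type*} [Fintype a] [DecidableEq a] [Fintype b] [DecidableEq b]
    [Fintype c] [DecidableEq c] [Fintype d] [DecidableEq d] {D : Matrix a b ℝ} (hD : Dᵀ * D = 1)
    (T : Matrix c d ℝ) (F : Matrix b d ℝ) (q : ℝ) :
    (q • (D * F * Tᵀ))ᵀ * (q • (D * F * Tᵀ)) = (q * q) • (T * (Fᵀ * F) * Tᵀ) := by
  rw [smul_gram]
  congr 1
  rw [transpose_mul, transpose_mul, transpose_transpose,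
    show T * (Fᵀ * Dᵀ) * (D * F * Tᵀ) = T * (Fᵀ * (Dᵀ * D) * F) * Tᵀ by
      simp only [Matrix.mul_assoc], hD, Matrix.mul_one]

/-! ### The three hubs -/

/-- the matrix of `A` at the node -/
def nA (L : ℕ) (A : ℤ → ℤ → ℝ) (k : ℕ) (m : Pt) : Matrix (Ix k) (Ix k) ℝ :=
  bl k (dup L A) m.1 m.2.1

/-- the matrix of `B` at the node -/
def nB (L : ℕ) (e : κ → ℤ) (B : ℤ → ℤ → κ → ℝ) (k : ℕ) (m : Pt) : Matrix (Ix k) (Ix k) ℝ :=
  bl k (encR L fun lab y x => cu e (B x y) lab) m.2.1 m.2.2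

/-- the matrix of `C` at the node -/
def nC (L : ℕ) (e : κ → ℤ) (C : ℤ → ℤ → κ → ℝ) (k : ℕ) (m : Pt) : Matrix (Ix k) (Ix k) ℝ :=
  (bl k (encR L fun lab z x => cu e (C z x) lab) m.1 m.2.2)ᵀ

theorem nA_eq (L k : ℕ) (A : ℤ → ℤ → ℝ) (m : Pt) :
    nA L A (k + L) m = (2 ^ L : ℝ) • (DI L k * bl k A m.1 m.2.1 * (DI L k)ᵀ) := bl_dup' ..

theorem nB_eq (k : ℕ) (B : ℤ → ℤ → κ → ℝ) (m : Pt) :
    nB L e B (k + L) m = (2 ^ L : ℝ) •
      (DI L k * mx k (fun q y x => B x y q) m.2.1 m.2.2 * (TE L e k)ᵀ) :=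
  bl_enc' k (fun q y x => B x y q) m.2.1 m.2.2

theorem nC_eq (k : ℕ) (C : ℤ → ℤ → κ → ℝ) (m : Pt) :
    nC L e C (k + L) m = (2 ^ L : ℝ) •
      (TE L e k * (mx k (fun q z x => C z x q) m.1 m.2.2)ᵀ * (DI L k)ᵀ) := by
  have h := bl_enc' (L := L) (e := e) k (fun q z x => C z x q) m.1 m.2.2
  have h2 := congrArg Matrix.transpose h
  have e1 : nC L e C (k + L) m =
      (bl (k + L) (encR L (lf e fun q z x => C z x q)) m.1 m.2.2)ᵀ := rfl
  rw [e1, h2, transpose_smul, transpose_mul, transpose_mul, transpose_transpose,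
    Matrix.mul_assoc]

/-- the Gram matrix of `A` on `y` -/
theorem gA_y (k : ℕ) (A : ℤ → ℤ → ℝ) (n m : ℤ) :
    (bl k A n m)ᵀ * bl k A n m = (4 ^ k : ℝ) • Xg k k A n m := by
  unfold PL.H588.Xg
  rw [smul_smul, ← four_two k, mul_inv_cancel₀ (by positivity), one_smul]
  rfl

/-- the Gram matrix of `A` on `z` -/
theorem gA_z (k : ℕ) (A : ℤ → ℤ → ℝ) (n m : ℤ) :
    bl k A n m * (bl k A n m)ᵀ = (4 ^ k : ℝ) • Xg k k (fun y z => A z y) m n := by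
  rw [← gA_y]
  have e1 : bl k (fun y z => A z y) m n = (bl k A n m)ᵀ := rfl
  rw [e1, transpose_transpose]

theorem mx_x (k : ℕ) (f : κ → ℤ → ℤ → ℝ) (n m : ℤ) :
    (mx k f n m)ᵀ * mx k f n m = (4 ^ k : ℝ) • QL k (fun w x q => f q w x) n m := by
  ext p q
  rw [Matrix.mul_apply, Matrix.smul_apply, smul_eq_mul]
  unfold H408.QL
  rw [PL.H588.sum_iv, ← mul_assoc, ← four_two k, mul_inv_cancel₀ (by positivity), one_mul]
  rfl

theorem mx_y (k : ℕ) (f : κ → ℤ → ℤ → ℝ) (n m : ℤ) :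
    mx k f n m * (mx k f n m)ᵀ =
      (4 ^ k : ℝ) • QW k k (fun x w q => f q w x) (fun _ => 1) m n := by
  ext p q
  rw [Matrix.mul_apply, Matrix.smul_apply, smul_eq_mul]
  unfold H103.QW
  rw [PL.H588.sum_iv, ← mul_assoc, ← four_two k, mul_inv_cancel₀ (by positivity), one_mul,
    Fintype.sum_prod_type]
  refine sum_congr rfl fun j _ => ?_
  rw [one_mulVec]
  rfl

theorem hdL_hL {k : ℕ} (hk : 1 ≤ k) : hdL κ k = hL κ k := by
  ext p q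
  unfold H408.hdL H536.hL
  rw [H536.hd_diag hk, Matrix.diagonal_apply, Matrix.diagonal_apply]
  by_cases h : p = q
  · subst h
    simp
  · rw [if_neg h]
    by_cases h2 : p.2 = q.2
    · rw [if_pos h2, if_neg fun h1 => h (Prod.ext h1 h2)]
    · rw [if_neg h2]

theorem psd_Xg (k : ℕ) (A : ℤ → ℤ → ℝ) (n m : ℤ) : (Xg k k A n m).PosSemidef := by
  unfold PL.H588.Xg
  exact (psd_transpose_mul _).smul (by positivity)

theorem psd_QL (k : ℕ) (f : ℤ → ℤ → κ → ℝ) (n m : ℤ) : (QL k f n m).PosSemidef := by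
  have h := (psd_transpose_mul (mx k (fun q w x => f w x q) n m)).smul
    (show (0 : ℝ) ≤ (4 ^ k)⁻¹ by positivity)
  rw [mx_x, smul_smul, inv_mul_cancel₀ (by positivity), one_smul] at h
  exact h

theorem psd_QW (k : ℕ) (f : ℤ → ℤ → κ → ℝ) (n m : ℤ) :
    (QW k k f (fun _ => 1) n m).PosSemidef := by
  have h0 := psd_transpose_mul (mx k (fun q w x => f x w q) m n)ᵀ
  rw [transpose_transpose] at h0
  have h := h0.smul (show (0 : ℝ) ≤ (4 ^ k)⁻¹ by positivity)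
  rw [mx_y, smul_smul, inv_mul_cancel₀ (by positivity), one_smul] at h
  exact h

/-- scaling of a Gram matrix -/
theorem sc_eq {n : Type*} (x : ℝ) (k L : ℕ) (X : Matrix n n ℝ) :
    ((x ^ 2)⁻¹ * ((4 : ℝ) ^ (k + L))⁻¹) • (((2 : ℝ) ^ L * 2 ^ L) • ((4 : ℝ) ^ k • X)) =
      (x ^ 2)⁻¹ • X := by
  rw [smul_smul, smul_smul]
  congr 1
  rw [four_two, pow_add]
  field_simp

theorem conj_smul {m n : Type*} [Fintype n] (T : Matrix m n ℝ) (c : ℝ) (X : Matrix n n ℝ) :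
    T * (c • X) * Tᵀ = c • (T * X * Tᵀ) := by
  rw [Matrix.mul_smul, Matrix.smul_mul]

/-- the form of the raw pair sums -/
theorem pair_form {n : Type*} [Fintype n] [DecidableEq n] (k : ℕ) {x y : ℝ}
    (X Y h : Matrix n n ℝ) :
    4 ^ k * (phs (x ^ 2) X * (h * phs (y ^ 2) Y * h)).trace =
      x ^ 2 * y ^ 2 * (4 ^ k * (phi ((x ^ 2)⁻¹ • X) * (h * phi ((y ^ 2)⁻¹ • Y) * h)).trace) := by
  unfold H585.PairCh.phs
  simp only [Matrix.smul_mul, Matrix.mul_smul, trace_smul, smul_eq_mul]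
  ring

/-- `nB nBᵀ` -/
theorem nB_y (k : ℕ) (B : ℤ → ℤ → κ → ℝ) (he : Function.Injective e) (hm : ∀ i, e i ∈ lbs L)
    (m : Pt) : nB L e B (k + L) m * (nB L e B (k + L) m)ᵀ = ((2 : ℝ) ^ L * 2 ^ L) •
      (DI L k * ((4 ^ k : ℝ) • QW k k B (fun _ => 1) m.2.2 m.2.1) * (DI L k)ᵀ) := by
  have h := gram_iso (TE_iso he hm k) (DI L k) (mx k (fun q y x => B x y q) m.2.1 m.2.2)ᵀ
    ((2 : ℝ) ^ L)
  have e1 : (nB L e B (k + L) m)ᵀ = (2 ^ L : ℝ) •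
      (TE L e k * (mx k (fun q y x => B x y q) m.2.1 m.2.2)ᵀ * (DI L k)ᵀ) := by
    rw [nB_eq, transpose_smul, transpose_mul, transpose_mul, transpose_transpose,
      Matrix.mul_assoc]
  rw [← e1, transpose_transpose, transpose_transpose, mx_y] at h
  exact h

/-- `nCᵀ nC` -/
theorem nC_z (k : ℕ) (C : ℤ → ℤ → κ → ℝ) (he : Function.Injective e) (hm : ∀ i, e i ∈ lbs L)
    (m : Pt) : (nC L e C (k + L) m)ᵀ * nC L e C (k + L) m = ((2 : ℝ) ^ L * 2 ^ L) •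
      (DI L k * ((4 ^ k : ℝ) • QW k k (fun x z => C z x) (fun _ => 1) m.2.2 m.1) * (DI L k)ᵀ) := by
  have h := gram_iso (TE_iso he hm k) (DI L k) (mx k (fun q z x => C z x q) m.1 m.2.2)ᵀ
    ((2 : ℝ) ^ L)
  rw [← nC_eq, transpose_transpose, mx_y] at h
  exact h

/-- `nBᵀ nB` -/
theorem nB_x (k : ℕ) (B : ℤ → ℤ → κ → ℝ) (m : Pt) :
    (nB L e B (k + L) m)ᵀ * nB L e B (k + L) m = ((2 : ℝ) ^ L * 2 ^ L) •
      (TE L e k * ((4 ^ k : ℝ) • QL k (fun y x => B x y) m.2.1 m.2.2) * (TE L e k)ᵀ) := by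
  have h := gram_iso (DI_iso L k) (TE L e k) (mx k (fun q y x => B x y q) m.2.1 m.2.2)
    ((2 : ℝ) ^ L)
  rw [← nB_eq, mx_x] at h
  exact h

/-- `nC nCᵀ` -/
theorem nC_x (k : ℕ) (C : ℤ → ℤ → κ → ℝ) (m : Pt) :
    nC L e C (k + L) m * (nC L e C (k + L) m)ᵀ = ((2 : ℝ) ^ L * 2 ^ L) •
      (TE L e k * ((4 ^ k : ℝ) • QL k C m.1 m.2.2) * (TE L e k)ᵀ) := by
  have h := gram_iso (DI_iso L k) (TE L e k) (mx k (fun q z x => C z x q) m.1 m.2.2)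
    ((2 : ℝ) ^ L)
  have e1 : (nC L e C (k + L) m)ᵀ = (2 ^ L : ℝ) •
      (DI L k * mx k (fun q z x => C z x q) m.1 m.2.2 * (TE L e k)ᵀ) := by
    rw [nC_eq, transpose_smul, transpose_mul, transpose_mul, transpose_transpose,
      transpose_transpose, Matrix.mul_assoc]
  rw [← e1, transpose_transpose, mx_x] at h
  exact h

/-- `nA nAᵀ` -/
theorem nA_z (L k : ℕ) (A : ℤ → ℤ → ℝ) (m : Pt) :
    nA L A (k + L) m * (nA L A (k + L) m)ᵀ = ((2 : ℝ) ^ L * 2 ^ L) •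
      (DI L k * ((4 ^ k : ℝ) • Xg k k (fun y z => A z y) m.2.1 m.1) * (DI L k)ᵀ) := by
  have h := gram_iso (DI_iso L k) (DI L k) (bl k A m.1 m.2.1)ᵀ ((2 : ℝ) ^ L)
  have e1 : (nA L A (k + L) m)ᵀ = (2 ^ L : ℝ) •
      (DI L k * (bl k A m.1 m.2.1)ᵀ * (DI L k)ᵀ) := by
    rw [nA_eq, transpose_smul, transpose_mul, transpose_mul, transpose_transpose,
      Matrix.mul_assoc]
  rw [← e1, transpose_transpose, transpose_transpose, gA_z] at h
  exact h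

/-- **Hub `x2`.** -/
theorem M2_y (he : Function.Injective e) (hm : ∀ i, e i ∈ lbs L) {k : ℕ} (hk : 1 ≤ k)
    (A : ℤ → ℤ → ℝ) (B : ℤ → ℤ → κ → ℝ) (m : Pt) (x y : ℝ) :
    x ^ 2 * y ^ 2 * (4 ^ (k + L) * M2 (hd (k + L)) ((x ^ 2)⁻¹ * (4 ^ (k + L))⁻¹)
      ((y ^ 2)⁻¹ * (4 ^ (k + L))⁻¹) (nA L A (k + L) m) (nB L e B (k + L) m)) =
      4 ^ L * rAB A B k m x y := by
  have h1 : gramC ((x ^ 2)⁻¹ * (4 ^ (k + L))⁻¹) (nA L A (k + L) m) =
      DI L k * ((x ^ 2)⁻¹ • Xg k k A m.1 m.2.1) * (DI L k)ᵀ := by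
    unfold gramC
    rw [nA_eq, gram_iso (DI_iso L k), gA_y, conj_smul, conj_smul, sc_eq]
  have h2 : gramR ((y ^ 2)⁻¹ * (4 ^ (k + L))⁻¹) (nB L e B (k + L) m) =
      DI L k * ((y ^ 2)⁻¹ • QW k k B (fun _ => 1) m.2.2 m.2.1) * (DI L k)ᵀ := by
    unfold gramR
    rw [nB_y k B he hm, conj_smul, conj_smul, sc_eq]
  unfold PL.H804.M2
  rw [h1, h2, tr_iso (DI_iso L k) (PL.H804.hd_symm _) (PL.H804.hd_symm _) (hd_DI hk)
    ((psd_Xg ..).smul (by positivity)) ((psd_QW ..).smul (by positivity))]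
  unfold H408.rAB
  rw [pair_form, pow_add]
  ring

/-- **Hub `x1`.** -/
theorem M2_x (he : Function.Injective e) (hm : ∀ i, e i ∈ lbs L) {k : ℕ} (hk : 1 ≤ k)
    (B C : ℤ → ℤ → κ → ℝ) (m : Pt) (y z : ℝ) :
    y ^ 2 * z ^ 2 * (4 ^ (k + L) * M2 (hd (k + L)) ((y ^ 2)⁻¹ * (4 ^ (k + L))⁻¹)
      ((z ^ 2)⁻¹ * (4 ^ (k + L))⁻¹) (nB L e B (k + L) m) (nC L e C (k + L) m)) =
      4 ^ L * rBC B C k m y z := by
  have h1 : gramC ((y ^ 2)⁻¹ * (4 ^ (k + L))⁻¹) (nB L e B (k + L) m) =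
      TE L e k * ((y ^ 2)⁻¹ • QL k (fun y x => B x y) m.2.1 m.2.2) * (TE L e k)ᵀ := by
    unfold gramC
    rw [nB_x, conj_smul, conj_smul, sc_eq]
  have h2 : gramR ((z ^ 2)⁻¹ * (4 ^ (k + L))⁻¹) (nC L e C (k + L) m) =
      TE L e k * ((z ^ 2)⁻¹ • QL k C m.1 m.2.2) * (TE L e k)ᵀ := by
    unfold gramR
    rw [nC_x, conj_smul, conj_smul, sc_eq]
  unfold PL.H804.M2
  rw [h1, h2, tr_iso (TE_iso he hm k) (PL.H804.hd_symm _) (hL_symm k) (hd_TE hk)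
    ((psd_QL ..).smul (by positivity)) ((psd_QL ..).smul (by positivity))]
  unfold H408.rBC
  rw [pair_form, pow_add, hdL_hL hk]
  ring

/-- **Hub `x3`.** -/
theorem M2_z (he : Function.Injective e) (hm : ∀ i, e i ∈ lbs L) {k : ℕ} (hk : 1 ≤ k)
    (C : ℤ → ℤ → κ → ℝ) (A : ℤ → ℤ → ℝ) (m : Pt) (z x : ℝ) :
    z ^ 2 * x ^ 2 * (4 ^ (k + L) * M2 (hd (k + L)) ((z ^ 2)⁻¹ * (4 ^ (k + L))⁻¹)
      ((x ^ 2)⁻¹ * (4 ^ (k + L))⁻¹) (nC L e C (k + L) m) (nA L A (k + L) m)) =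
      4 ^ L * rCA C A k m z x := by
  have h1 : gramC ((z ^ 2)⁻¹ * (4 ^ (k + L))⁻¹) (nC L e C (k + L) m) =
      DI L k * ((z ^ 2)⁻¹ • QW k k (fun x z => C z x) (fun _ => 1) m.2.2 m.1) *
        (DI L k)ᵀ := by
    unfold gramC
    rw [nC_z k C he hm, conj_smul, conj_smul, sc_eq]
  have h2 : gramR ((x ^ 2)⁻¹ * (4 ^ (k + L))⁻¹) (nA L A (k + L) m) =
      DI L k * ((x ^ 2)⁻¹ • Xg k k (fun y z => A z y) m.2.1 m.1) * (DI L k)ᵀ := by
    unfold gramR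
    rw [nA_z, conj_smul, conj_smul, sc_eq]
  unfold PL.H804.M2
  rw [h1, h2, tr_iso (DI_iso L k) (PL.H804.hd_symm _) (PL.H804.hd_symm _) (hd_DI hk)
    ((psd_QW ..).smul (by positivity)) ((psd_Xg ..).smul (by positivity))]
  unfold H408.rCA
  rw [pair_form, pow_add]
  ring

/-! ### The caps -/

theorem cap_scale {n : Type*} [Fintype n] [DecidableEq n] {c : ℝ} (hc : 0 < c)
    {X : Matrix n n ℝ} (h : ((c ^ 2) • (1 : Matrix n n ℝ) - X).PosSemidef) :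
    (1 - (c ^ 2)⁻¹ • X).PosSemidef := by
  have h1 := h.smul (show (0 : ℝ) ≤ (c ^ 2)⁻¹ by positivity)
  rwa [smul_sub, smul_smul, inv_mul_cancel₀ (by positivity), one_smul] at h1

theorem cap_more {n : Type*} [Fintype n] [DecidableEq n] {c c' : ℝ} (hc : 0 < c) (hcc : c ≤ c')
    {X : Matrix n n ℝ} (h : ((c ^ 2) • (1 : Matrix n n ℝ) - X).PosSemidef) :
    ((c' ^ 2) • (1 : Matrix n n ℝ) - X).PosSemidef := by
  have h1 := h.add ((PosSemidef.one (n := n) (R := ℝ)).smul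
    (show (0 : ℝ) ≤ c' ^ 2 - c ^ 2 by nlinarith))
  rw [sub_smul] at h1
  have e : (c ^ 2) • (1 : Matrix n n ℝ) - X + ((c' ^ 2) • 1 - (c ^ 2) • 1) =
      (c' ^ 2) • 1 - X := by abel
  rwa [e] at h1

theorem cap_A {k : ℕ} {A : ℤ → ℤ → ℝ} {m : Pt} {c : ℝ} (hc : 0 < c)
    (h : ((c ^ 2) • (1 : Matrix (Ix k) (Ix k) ℝ) - Xg k k A m.1 m.2.1).PosSemidef) :
    (1 - gramC ((c ^ 2)⁻¹ * (4 ^ (k + L))⁻¹) (nA L A (k + L) m)).PosSemidef := by
  have h1 : gramC ((c ^ 2)⁻¹ * (4 ^ (k + L))⁻¹) (nA L A (k + L) m) =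
      DI L k * ((c ^ 2)⁻¹ • Xg k k A m.1 m.2.1) * (DI L k)ᵀ := by
    unfold gramC
    rw [nA_eq, gram_iso (DI_iso L k), gA_y, conj_smul, conj_smul, sc_eq]
  rw [h1]
  exact cap_iso (DI_iso L k) (cap_scale hc h)

theorem cap_B (he : Function.Injective e) (hm : ∀ i, e i ∈ lbs L) {k : ℕ}
    {B : ℤ → ℤ → κ → ℝ} {m : Pt} {c : ℝ} (hc : 0 < c)
    (h : ((c ^ 2) • (1 : Matrix (Ix k) (Ix k) ℝ) -
      QW k k B (fun _ => 1) m.2.2 m.2.1).PosSemidef) :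
    (1 - gramC ((c ^ 2)⁻¹ * (4 ^ (k + L))⁻¹) (nB L e B (k + L) m)).PosSemidef := by
  have h1 : ((c ^ 2)⁻¹ * ((4 : ℝ) ^ (k + L))⁻¹) •
      (nB L e B (k + L) m * (nB L e B (k + L) m)ᵀ) =
      DI L k * ((c ^ 2)⁻¹ • QW k k B (fun _ => 1) m.2.2 m.2.1) * (DI L k)ᵀ := by
    rw [nB_y k B he hm, conj_smul, conj_smul, sc_eq]
  unfold gramC
  refine cap_flip (by positivity) ?_
  rw [h1]
  exact cap_iso (DI_iso L k) (cap_scale hc h)

theorem cap_C (he : Function.Injective e) (hm : ∀ i, e i ∈ lbs L) {k : ℕ}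
    {C : ℤ → ℤ → κ → ℝ} {m : Pt} {c : ℝ} (hc : 0 < c)
    (h : ((c ^ 2) • (1 : Matrix (Ix k) (Ix k) ℝ) -
      QW k k (fun x z => C z x) (fun _ => 1) m.2.2 m.1).PosSemidef) :
    (1 - gramC ((c ^ 2)⁻¹ * (4 ^ (k + L))⁻¹) (nC L e C (k + L) m)).PosSemidef := by
  have h1 : gramC ((c ^ 2)⁻¹ * (4 ^ (k + L))⁻¹) (nC L e C (k + L) m) =
      DI L k * ((c ^ 2)⁻¹ • QW k k (fun x z => C z x) (fun _ => 1) m.2.2 m.1) *
        (DI L k)ᵀ := by
    unfold gramC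
    rw [nC_z k C he hm, conj_smul, conj_smul, sc_eq]
  rw [h1]
  exact cap_iso (DI_iso L k) (cap_scale hc h)

/-! ### The node form -/

theorem nf3_node (he : Function.Injective e) (hm : ∀ i, e i ∈ lbs L) {k : ℕ} (hk : 1 ≤ k)
    (A : ℤ → ℤ → ℝ) (B C : ℤ → ℤ → κ → ℝ) (m : Pt) :
    |nf3 A B C k m| = (4 ^ L : ℝ)⁻¹ * |(2 ^ (k + L) : ℝ)⁻¹ *
      T3 (hd (k + L)) (nA L A (k + L) m) (nB L e B (k + L) m) (nC L e C (k + L) m)| :=
  H747.abs_nf3_T3 he hm hk A B C m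

end

end Vale.Agent.P141.H178
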