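import Vale.Agent.P141.H178.Dict
import Vale.Agent.P141.H228.StageLX

/-!
# P141, line (A): the stage over the `x0` in the letters `rAB`, `rBC`, `rCA`

* `RX_AB`, `RX_BC`, `RX_CA` : the pair sums of the family of the labelled matrices;
* `stageR` : `H581.stageY` for functions depending on the node, with labels;
* `TTf_leR` : the part with the slot `Th` from raw pair sums at the levels above `g`;
* `stageS` : `H408.StageS`.
-/

namespace Vale.Agent.P141.H178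

open Finset Matrix Vale.Agent.P075 Vale.Agent.P141.PL
open Vale.Agent.P141.PL.H588 (hd Xg smp)
open Vale.Agent.P141.PL.H804 (bx3 bl M2)
open Vale.Agent.P141.H958 (lbs encR dup)
open Vale.Agent.P141.H103 (QW)
open Vale.Agent.P141.H585.PairCh (phs)
open Vale.Agent.P141.H408 (rAB rBC rCA QL hdL StageC StageS Caps TTf PABf PBCf PCAf Bt Ct SN
  SN_sigma ndT_nf3)
open Vale.Agent.P141.H677 (nf3 KT GT sN rt tr_T)
open Vale.Agent.P141.H677.Sk (FamA FamV FunF)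
open Vale.Agent.P141.H609 (RP UN NM)
open Vale.Agent.P141.H581 (RX UX)
open Vale.Agent.P141.H747 (sL sum_sL)

noncomputable section

set_option linter.unusedSectionVars false

section fam

variable {κ : Type*} [Fintype κ] [DecidableEq κ] {J : Type*}

/-- the family of `A` -/
def fnA (L : ℕ) (A : J → ℕ → Pt → ℤ → ℤ → ℝ) (i : J) : NM := fun k m => nA L (A i (k - L) m) k m

/-- the family of `B` -/
def fnB (L : ℕ) (e : κ → ℤ) (B : J → ℕ → Pt → ℤ → ℤ → κ → ℝ) (i : J) : NM :=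
  fun k m => nB L e (B i (k - L) m) k m

/-- the family of `C` -/
def fnC (L : ℕ) (e : κ → ℤ) (C : J → ℕ → Pt → ℤ → ℤ → κ → ℝ) (i : J) : NM :=
  fun k m => nC L e (C i (k - L) m) k m

variable {L : ℕ} {e : κ → ℤ} {X : Finset J} {K : ℕ} {s : J → ℕ → Finset Pt}

theorem RX_AB (he : Function.Injective e) (hm : ∀ i, e i ∈ lbs L)
    (A : J → ℕ → Pt → ℤ → ℤ → ℝ) (B : J → ℕ → Pt → ℤ → ℤ → κ → ℝ) (x y : ℝ) :
    RX X (K + L) (fun i => sL L (s i)) x y (fnA L A) (fnB L e B) =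
      4 ^ L * ∑ i ∈ X, ∑ k ∈ Icc 1 K, ∑ m ∈ s i k, rAB (A i k m) (B i k m) k m x y := by
  unfold H581.RX H609.RP
  rw [mul_sum]
  refine sum_congr rfl fun i _ => ?_
  rw [sum_sL L K (s i) fun k m => x ^ 2 * y ^ 2 * (4 ^ k * M2 (hd k) ((x ^ 2)⁻¹ * (4 ^ k)⁻¹)
    ((y ^ 2)⁻¹ * (4 ^ k)⁻¹) (fnA L A i k m) (fnB L e B i k m)), mul_sum]
  refine sum_congr rfl fun k hk => ?_
  rw [mul_sum]
  refine sum_congr rfl fun m _ => ?_
  unfold fnA fnB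
  rw [Nat.add_sub_cancel]
  exact M2_y he hm (mem_Icc.1 hk).1 _ _ m x y

theorem RX_BC (he : Function.Injective e) (hm : ∀ i, e i ∈ lbs L)
    (B C : J → ℕ → Pt → ℤ → ℤ → κ → ℝ) (x y : ℝ) :
    RX X (K + L) (fun i => sL L (s i)) x y (fnB L e B) (fnC L e C) =
      4 ^ L * ∑ i ∈ X, ∑ k ∈ Icc 1 K, ∑ m ∈ s i k, rBC (B i k m) (C i k m) k m x y := by
  unfold H581.RX H609.RP
  rw [mul_sum]
  refine sum_congr rfl fun i _ => ?_
  rw [sum_sL L K (s i) fun k m => x ^ 2 * y ^ 2 * (4 ^ k * M2 (hd k) ((x ^ 2)⁻¹ * (4 ^ k)⁻¹)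
    ((y ^ 2)⁻¹ * (4 ^ k)⁻¹) (fnB L e B i k m) (fnC L e C i k m)), mul_sum]
  refine sum_congr rfl fun k hk => ?_
  rw [mul_sum]
  refine sum_congr rfl fun m _ => ?_
  unfold fnB fnC
  rw [Nat.add_sub_cancel]
  exact M2_x he hm (mem_Icc.1 hk).1 _ _ m x y

theorem RX_CA (he : Function.Injective e) (hm : ∀ i, e i ∈ lbs L)
    (C : J → ℕ → Pt → ℤ → ℤ → κ → ℝ) (A : J → ℕ → Pt → ℤ → ℤ → ℝ) (x y : ℝ) :
    RX X (K + L) (fun i => sL L (s i)) x y (fnC L e C) (fnA L A) =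
      4 ^ L * ∑ i ∈ X, ∑ k ∈ Icc 1 K, ∑ m ∈ s i k, rCA (C i k m) (A i k m) k m x y := by
  unfold H581.RX H609.RP
  rw [mul_sum]
  refine sum_congr rfl fun i _ => ?_
  rw [sum_sL L K (s i) fun k m => x ^ 2 * y ^ 2 * (4 ^ k * M2 (hd k) ((x ^ 2)⁻¹ * (4 ^ k)⁻¹)
    ((y ^ 2)⁻¹ * (4 ^ k)⁻¹) (fnC L e C i k m) (fnA L A i k m)), mul_sum]
  refine sum_congr rfl fun k hk => ?_
  rw [mul_sum]
  refine sum_congr rfl fun m _ => ?_
  unfold fnC fnA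
  rw [Nat.add_sub_cancel]
  exact M2_z he hm (mem_Icc.1 hk).1 _ _ m x y

/-- the forms -/
theorem UX_nf3 (he : Function.Injective e) (hm : ∀ i, e i ∈ lbs L)
    (A : J → ℕ → Pt → ℤ → ℤ → ℝ) (B C : J → ℕ → Pt → ℤ → ℤ → κ → ℝ) (cA cB cC : ℝ) :
    ∑ i ∈ X, ∑ k ∈ Icc 1 K, ∑ m ∈ s i k, |nf3 (A i k m) (B i k m) (C i k m) k m| =
      (4 ^ L : ℝ)⁻¹ * UX X (K + L) (fun i => sL L (s i)) cA cB cC (fnA L A) (fnB L e B)
        (fnC L e C) 0 0 0 := by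
  unfold H581.UX H609.UN
  rw [mul_sum]
  refine sum_congr rfl fun i _ => ?_
  have h := sum_sL L K (s i) fun k m => |(2 ^ k : ℝ)⁻¹ *
    T3 (hd k) (fnA L A i k m) (fnB L e B i k m) (fnC L e C i k m)|
  have h2 : ∑ k ∈ Icc 1 (K + L), ∑ m ∈ sL L (s i) k, |(2 ^ k : ℝ)⁻¹ *
      T3 (hd k) (H958.rg ((cA ^ 2)⁻¹ * (4 ^ k)⁻¹) (fnA L A i k m) 0)
        (H958.rg ((cB ^ 2)⁻¹ * (4 ^ k)⁻¹) (fnB L e B i k m) 0)
        (H958.rg ((cC ^ 2)⁻¹ * (4 ^ k)⁻¹) (fnC L e C i k m) 0)| =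
      ∑ k ∈ Icc 1 (K + L), ∑ m ∈ sL L (s i) k, |(2 ^ k : ℝ)⁻¹ *
        T3 (hd k) (fnA L A i k m) (fnB L e B i k m) (fnC L e C i k m)| := rfl
  rw [h2, h, mul_sum]
  refine sum_congr rfl fun k hk => ?_
  rw [mul_sum]
  refine sum_congr rfl fun m _ => ?_
  unfold fnA fnB fnC
  rw [Nat.add_sub_cancel]
  exact nf3_node he hm (mem_Icc.1 hk).1 _ _ _ m

/-- nodes of the fine scales -/
theorem mem_sL {s : ℕ → Finset Pt} {k : ℕ} {m : Pt} (h : m ∈ sL L s k) :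
    ∃ j, k = j + L ∧ 1 ≤ j ∧ m ∈ s j := by
  unfold H747.sL at h
  split_ifs at h with h1
  · exact ⟨k - L, by omega, by omega, h⟩
  · exact absurd h (notMem_empty m)

theorem capX_A {A : J → ℕ → Pt → ℤ → ℤ → ℝ} {cA τ : ℝ} (hcA : 0 < cA) (hA : cA ≤ τ)
    (h : ∀ i ∈ X, ∀ k ∈ Icc 1 K, ∀ m ∈ s i k,
      ((cA ^ 2) • 1 - Xg k k (A i k m) m.1 m.2.1).PosSemidef) :
    ∀ i ∈ X, ∀ k ∈ Icc 1 (K + L), ∀ m ∈ sL L (s i) k,
      (1 - gramC ((τ ^ 2)⁻¹ * (4 ^ k)⁻¹) (fnA L A i k m)).PosSemidef := by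
  intro i hi k hk m hm
  obtain ⟨j, rfl, hj, hm'⟩ := mem_sL hm
  have hj2 : j ∈ Icc 1 K := by rw [mem_Icc] at hk ⊢; omega
  unfold fnA
  rw [Nat.add_sub_cancel]
  exact cap_A (hcA.trans_le hA) (cap_more hcA hA (h i hi j hj2 m hm'))

theorem capX_B (he : Function.Injective e) (hm : ∀ i, e i ∈ lbs L)
    {B : J → ℕ → Pt → ℤ → ℤ → κ → ℝ} {cB τ : ℝ} (hcB : 0 < cB) (hB : cB ≤ τ)
    (h : ∀ i ∈ X, ∀ k ∈ Icc 1 K, ∀ m ∈ s i k,
      ((cB ^ 2) • 1 - QW k k (B i k m) (fun _ => 1) m.2.2 m.2.1).PosSemidef) :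
    ∀ i ∈ X, ∀ k ∈ Icc 1 (K + L), ∀ m ∈ sL L (s i) k,
      (1 - gramC ((τ ^ 2)⁻¹ * (4 ^ k)⁻¹) (fnB L e B i k m)).PosSemidef := by
  intro i hi k hk m hmm
  obtain ⟨j, rfl, hj, hm'⟩ := mem_sL hmm
  have hj2 : j ∈ Icc 1 K := by rw [mem_Icc] at hk ⊢; omega
  unfold fnB
  rw [Nat.add_sub_cancel]
  exact cap_B he hm (hcB.trans_le hB) (cap_more hcB hB (h i hi j hj2 m hm'))

theorem capX_C (he : Function.Injective e) (hm : ∀ i, e i ∈ lbs L)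
    {C : J → ℕ → Pt → ℤ → ℤ → κ → ℝ} {cC : ℝ} (hcC : 0 < cC)
    (h : ∀ i ∈ X, ∀ k ∈ Icc 1 K, ∀ m ∈ s i k,
      ((cC ^ 2) • 1 - QW k k (fun x z => C i k m z x) (fun _ => 1) m.2.2 m.1).PosSemidef) :
    ∀ i ∈ X, ∀ k ∈ Icc 1 (K + L), ∀ m ∈ sL L (s i) k,
      (1 - gramC ((cC ^ 2)⁻¹ * (4 ^ k)⁻¹) (fnC L e C i k m)).PosSemidef := by
  intro i hi k hk m hmm
  obtain ⟨j, rfl, hj, hm'⟩ := mem_sL hmm
  have hj2 : j ∈ Icc 1 K := by rw [mem_Icc] at hk ⊢; omega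
  unfold fnC
  rw [Nat.add_sub_cancel]
  exact cap_C he hm hcC (h i hi j hj2 m hm')

/-- labels -/
theorem exists_lab (κ : Type*) [Fintype κ] :
    ∃ (L : ℕ) (e : κ → ℤ), Function.Injective e ∧ ∀ i, e i ∈ lbs L := by
  have hc : Fintype.card κ ≤ 2 ^ Fintype.card κ := Nat.lt_two_pow_self.le
  have h1 : Fintype.card κ ≤ Fintype.card (lbs (Fintype.card κ)) := by
    rw [Fintype.card_coe, H958.card_lbs]
    exact hc
  obtain ⟨f⟩ := Function.Embedding.nonempty_of_card_le h1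
  exact ⟨Fintype.card κ, fun i => f i, fun i j hij => f.injective (Subtype.ext hij),
    fun i => (f i).2⟩

theorem sqrt_four (L : ℕ) (a b : ℝ) :
    √(4 ^ L * a * (4 ^ L * b)) = 4 ^ L * √(a * b) := by
  rw [show (4 : ℝ) ^ L * a * (4 ^ L * b) = (4 ^ L) ^ 2 * (a * b) by ring,
    Real.sqrt_mul (by positivity), Real.sqrt_sq (by positivity)]

/-- **The stage over the `x0`, raw partners above `g`.** -/
theorem stageR (A : J → ℕ → Pt → ℤ → ℤ → ℝ) (B C : J → ℕ → Pt → ℤ → ℤ → κ → ℝ)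
    {cA cB τ cC P₀ P₁ QA QB Z κ' g σ e₂ : ℝ} {D L₀ L₁ : ℕ}
    (hcA : 0 < cA) (hA : cA ≤ τ) (hcB : 0 < cB) (hB : cB ≤ τ) (hcC : 0 < cC)
    (hP₀ : 0 ≤ P₀) (hQB0 : 0 ≤ QB) (hZ0 : 0 ≤ Z) (hκ : 0 ≤ κ')
    (hDσ : τ / 2 ^ (D - 1) ≤ σ) (hσ : σ ≤ e₂) (hL₀ : cC / 2 ^ (L₀ - 1) ≤ g)
    (hL₁ : cC / 2 ^ (L₁ - 1) ≤ e₂)
    (capA : ∀ i ∈ X, ∀ k ∈ Icc 1 K, ∀ m ∈ s i k,
      ((cA ^ 2) • 1 - Xg k k (A i k m) m.1 m.2.1).PosSemidef)
    (capB : ∀ i ∈ X, ∀ k ∈ Icc 1 K, ∀ m ∈ s i k,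
      ((cB ^ 2) • 1 - QW k k (B i k m) (fun _ => 1) m.2.2 m.2.1).PosSemidef)
    (capC : ∀ i ∈ X, ∀ k ∈ Icc 1 K, ∀ m ∈ s i k,
      ((cC ^ 2) • 1 - QW k k (fun x z => C i k m z x) (fun _ => 1) m.2.2 m.1).PosSemidef)
    (hAB : ∀ h, 0 < h → h ≤ τ → ∑ i ∈ X, ∑ k ∈ Icc 1 K, ∑ m ∈ s i k,
      rAB (A i k m) (B i k m) k m h h ≤ P₀ * h ^ 2)
    (hAB' : ∀ h, 0 < h → h ≤ e₂ → ∑ i ∈ X, ∑ k ∈ Icc 1 K, ∑ m ∈ s i k,
      rAB (A i k m) (B i k m) k m h h ≤ P₀ * h ^ 2)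
    (hT : ∀ x, g ≤ x → x ≤ cC → √((∑ i ∈ X, ∑ k ∈ Icc 1 K, ∑ m ∈ s i k,
        rBC (B i k m) (C i k m) k m τ x) * ∑ i ∈ X, ∑ k ∈ Icc 1 K, ∑ m ∈ s i k,
        rCA (C i k m) (A i k m) k m x τ) ≤ κ' * x)
    (hQA : ∑ i ∈ X, ∑ k ∈ Icc 1 K, ∑ m ∈ s i k, rCA (C i k m) (A i k m) k m g τ ≤ QA)
    (hQB : ∑ i ∈ X, ∑ k ∈ Icc 1 K, ∑ m ∈ s i k, rBC (B i k m) (C i k m) k m τ g ≤ QB)
    (hCA : ∀ x, e₂ ≤ x → x ≤ g → ∑ i ∈ X, ∑ k ∈ Icc 1 K, ∑ m ∈ s i k,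
      rCA (C i k m) (A i k m) k m x σ ≤ P₁ * x ^ 2)
    (hZB : ∀ h, 0 < h → h ≤ e₂ → ∑ i ∈ X, ∑ k ∈ Icc 1 K, ∑ m ∈ s i k,
      rBC (B i k m) (C i k m) k m h h ≤ Z * h ^ 2)
    (hZA : ∀ h, 0 < h → h ≤ e₂ → ∑ i ∈ X, ∑ k ∈ Icc 1 K, ∑ m ∈ s i k,
      rCA (C i k m) (A i k m) k m h h ≤ Z * h ^ 2) :
    ∑ i ∈ X, ∑ k ∈ Icc 1 K, ∑ m ∈ s i k, |nf3 (A i k m) (B i k m) (C i k m) k m| ≤
      6 * κ' * L₀ + 6 * D * (√(P₀ * QA) + √(P₀ * QB)) +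
      6 * L₁ * √(P₁ * QB) + 54 * (P₀ + Z) * e₂ := by
  obtain ⟨L, e, he, hm⟩ := exists_lab κ
  have h4 : (0 : ℝ) < 4 ^ L := by positivity
  have hτ : 0 < τ := hcA.trans_le hA
  rw [UX_nf3 he hm A B C τ τ cC]
  have main := H581.stageY (I := X) (N := K + L) (s := fun i => sL L (s i)) (FA := fnA L A)
    (FB := fnB L e B) (FC := fnC L e C) hτ hcC (capX_A hcA hA capA) (capX_B he hm hcB hB capB)
    (capX_C he hm hcC capC) (P₀ := 4 ^ L * P₀) (P₁ := 4 ^ L * P₁) (QA := 4 ^ L * QA)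
    (QB := 4 ^ L * QB) (Z := 4 ^ L * Z) (κ' := 4 ^ L * κ') (g := g) (σ := σ) (e₂ := e₂)
    (by positivity) (by positivity) (by positivity) (by positivity) hDσ hσ hL₀ hL₁
    (fun h h0 h1 => by
      rw [RX_AB he hm, mul_assoc]
      exact mul_le_mul_of_nonneg_left (hAB h h0 h1) h4.le)
    (fun h h0 h1 => by
      rw [RX_AB he hm, mul_assoc]
      exact mul_le_mul_of_nonneg_left (hAB' h h0 h1) h4.le)
    (fun x h0 h1 => by
      rw [RX_BC he hm, RX_CA he hm, sqrt_four, mul_assoc]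
      exact mul_le_mul_of_nonneg_left (hT x h0 h1) h4.le)
    (by
      rw [RX_CA he hm]
      exact mul_le_mul_of_nonneg_left hQA h4.le)
    (by
      rw [RX_BC he hm]
      exact mul_le_mul_of_nonneg_left hQB h4.le)
    (fun x h0 h1 => by
      rw [RX_CA he hm, mul_assoc]
      exact mul_le_mul_of_nonneg_left (hCA x h0 h1) h4.le)
    (fun h h0 h1 => by
      rw [RX_BC he hm, mul_assoc]
      exact mul_le_mul_of_nonneg_left (hZB h h0 h1) h4.le)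
    (fun h h0 h1 => by
      rw [RX_CA he hm, mul_assoc]
      exact mul_le_mul_of_nonneg_left (hZA h h0 h1) h4.le)
  refine (mul_le_mul_of_nonneg_left main (inv_pos.2 h4).le).trans (le_of_eq ?_)
  rw [sqrt_four, sqrt_four, sqrt_four]
  field_simp

/-! ### From the cap to `τ` -/

theorem phi_half {n : Type*} [Fintype n] [DecidableEq n] {Y : Matrix n n ℝ} (hY : Y.PosSemidef)
    (h1 : (1 - Y).PosSemidef) : ((2 : ℝ) • phi Y - Y).PosSemidef := by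
  have hR := mul_res hY
  have hR' := res_mul hY
  set R := res Y with hRd
  have hRt : Rᵀ = R := res_symm hY
  have hYt : Yᵀ = Y := by
    have h := hY.isHermitian
    rwa [IsHermitian, conjTranspose_eq_transpose_of_trivial] at h
  have a1 : (Y * (1 - Y) * Y).PosSemidef := by
    have h := psd_conj h1 Y
    rwa [hYt] at h
  have a2 : ((1 - Y) * Y * (1 - Y)).PosSemidef := by
    have h := psd_conj hY (1 - Y)
    rwa [transpose_sub, transpose_one, hYt] at h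
  have a3 : (Y - Y * Y * Y).PosSemidef := by
    have h := (a1.add a1).add a2
    have e : Y * (1 - Y) * Y + Y * (1 - Y) * Y + (1 - Y) * Y * (1 - Y) = Y - Y * Y * Y := by
      noncomm_ring
    rwa [e] at h
  have a4 := psd_conj a3 R
  rw [hRt] at a4
  have e2 : R * (Y - Y * Y * Y) * R = (2 : ℝ) • phi Y - Y := by
    rw [phi, ← hRd]
    have k1 : Y * R = 1 - R := hR
    have k2 : R * Y = 1 - R := hR'
    have f1 : R * (Y - Y * Y * Y) * R = (R * Y) * R - (R * Y) * Y * (Y * R) := by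
      noncomm_ring
    have f2 : (1 - R) * Y = Y - (1 - R) := by rw [Matrix.sub_mul, Matrix.one_mul, k2]
    rw [f1, k2, k1, f2, two_smul]
    have f3 : (Y - (1 - R)) * (1 - R) = Y - Y * R - (1 - R) * (1 - R) := by noncomm_ring
    rw [f3, k1]
    noncomm_ring
  rwa [e2] at a4

/-- saturation at the cap is at least one half -/
theorem phs_half {n : Type*} [Fintype n] [DecidableEq n] {c τ : ℝ} (hc : 0 < c) (hcτ : c ≤ τ)
    {X : Matrix n n ℝ} (hX : X.PosSemidef) (h : ((c ^ 2) • (1 : Matrix n n ℝ) - X).PosSemidef) :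
    ((2 : ℝ) • phs (c ^ 2) X - phs (τ ^ 2) X).PosSemidef := by
  have h1 := (phi_half (hX.smul (show (0 : ℝ) ≤ (c ^ 2)⁻¹ by positivity))
    (cap_scale hc h)).smul (show (0 : ℝ) ≤ c ^ 2 by positivity)
  have hτ : 0 < τ := hc.trans_le hcτ
  have h2 := H43.RpX.phs_le (s := τ ^ 2) (by positivity) hX
  have h3 := h1.add h2
  have e : (c ^ 2) • ((2 : ℝ) • phi ((c ^ 2)⁻¹ • X) - (c ^ 2)⁻¹ • X) + (X - phs (τ ^ 2) X) =
      (2 : ℝ) • phs (c ^ 2) X - phs (τ ^ 2) X := by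
    unfold H585.PairCh.phs
    rw [smul_sub, smul_smul (c ^ 2) (c ^ 2)⁻¹, mul_inv_cancel₀ (by positivity), one_smul,
      smul_comm (c ^ 2) (2 : ℝ)]
    abel
  rwa [e] at h3

/-- the Gram matrix of `B` on `x` has the cap of the one on `y` -/
theorem capQL {k : ℕ} {B : ℤ → ℤ → κ → ℝ} {m : Pt} {c : ℝ} (hc : 0 < c)
    (h : ((c ^ 2) • (1 : Matrix (Ix k) (Ix k) ℝ) -
      QW k k B (fun _ => 1) m.2.2 m.2.1).PosSemidef) :
    ((c ^ 2) • (1 : Matrix (Ix k × κ) (Ix k × κ) ℝ) -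
      QL k (fun y x => B x y) m.2.1 m.2.2).PosSemidef := by
  have h1 := cap_scale hc h
  have e1 := mx_y k (fun q y x => B x y q) m.2.1 m.2.2
  have e2 := mx_x k (fun q y x => B x y q) m.2.1 m.2.2
  have h2 : (1 - ((c ^ 2)⁻¹ * (4 ^ k)⁻¹) • (H536.mx k (fun q y x => B x y q) m.2.1 m.2.2 *
      (H536.mx k (fun q y x => B x y q) m.2.1 m.2.2)ᵀ)).PosSemidef := by
    rw [e1, smul_smul]
    have e3 : (c ^ 2)⁻¹ * ((4 : ℝ) ^ k)⁻¹ * 4 ^ k = (c ^ 2)⁻¹ := by field_simp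
    rw [e3]
    exact h1
  have h3 := cap_flip (by positivity) h2
  rw [e2, smul_smul] at h3
  have e3 : (c ^ 2)⁻¹ * ((4 : ℝ) ^ k)⁻¹ * 4 ^ k = (c ^ 2)⁻¹ := by field_simp
  rw [e3] at h3
  have h4 := h3.smul (show (0 : ℝ) ≤ c ^ 2 by positivity)
  rw [smul_sub, smul_smul, mul_inv_cancel₀ (by positivity), one_smul] at h4
  exact h4

/-- the Gram matrix of `A` on `z` has the cap of the one on `y` -/
theorem capXz {k : ℕ} {A : ℤ → ℤ → ℝ} {n m : ℤ} {c : ℝ} (hc : 0 < c)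
    (h : ((c ^ 2) • (1 : Matrix (Ix k) (Ix k) ℝ) - Xg k k A n m).PosSemidef) :
    ((c ^ 2) • (1 : Matrix (Ix k) (Ix k) ℝ) - Xg k k (fun y z => A z y) m n).PosSemidef := by
  have h1 := cap_scale hc h
  have e1 := gA_y k A n m
  have e2 := gA_z k A n m
  have h2 : (1 - ((c ^ 2)⁻¹ * (4 ^ k)⁻¹) • ((bl k A n m)ᵀ * (bl k A n m)ᵀᵀ)).PosSemidef := by
    rw [transpose_transpose, e1, smul_smul]
    have e3 : (c ^ 2)⁻¹ * ((4 : ℝ) ^ k)⁻¹ * 4 ^ k = (c ^ 2)⁻¹ := by field_simp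
    rw [e3]
    exact h1
  have h3 := cap_flip (by positivity) h2
  rw [transpose_transpose, e2, smul_smul] at h3
  have e3 : (c ^ 2)⁻¹ * ((4 : ℝ) ^ k)⁻¹ * 4 ^ k = (c ^ 2)⁻¹ := by field_simp
  rw [e3] at h3
  have h4 := h3.smul (show (0 : ℝ) ≤ c ^ 2 by positivity)
  rw [smul_sub, smul_smul, mul_inv_cancel₀ (by positivity), one_smul] at h4
  exact h4

theorem hdL_symm (k : ℕ) : (hdL κ k)ᵀ = hdL κ k := by
  ext p q
  rw [transpose_apply]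
  unfold H408.hdL
  have h := congrFun (congrFun (PL.H804.hd_symm k) p.1) q.1
  rw [transpose_apply] at h
  by_cases h2 : p.2 = q.2
  · rw [if_pos h2, if_pos h2.symm, h]
  · rw [if_neg h2, if_neg fun h3 => h2 h3.symm]

theorem rBC_cap {k : ℕ} {B C : ℤ → ℤ → κ → ℝ} {m : Pt} {c τ x : ℝ} (hc : 0 < c) (hcτ : c ≤ τ)
    (hx : 0 < x) (h : ((c ^ 2) • (1 : Matrix (Ix k) (Ix k) ℝ) -
      QW k k B (fun _ => 1) m.2.2 m.2.1).PosSemidef) :
    rBC B C k m τ x ≤ 2 * rBC B C k m c x := by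
  have h1 := phs_half hc hcτ (psd_QL k (fun y x => B x y) m.2.1 m.2.2) (capQL hc h)
  have h2 : (hdL κ k * phs (x ^ 2) (QL k C m.1 m.2.2) * hdL κ k).PosSemidef := by
    refine psd_conj_symm ?_ (hdL_symm k)
    unfold H585.PairCh.phs
    exact (phi_psd ((psd_QL ..).smul (by positivity))).smul (by positivity)
  have h3 := trace_mul_nonneg h1 h2
  rw [Matrix.sub_mul, trace_sub, Matrix.smul_mul, trace_smul, smul_eq_mul] at h3
  unfold H408.rBC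
  have h4 : (0 : ℝ) ≤ 4 ^ k := by positivity
  have h5 := mul_le_mul_of_nonneg_left (sub_nonneg.1 h3) h4
  linarith

theorem rCA_cap {k : ℕ} {C : ℤ → ℤ → κ → ℝ} {A : ℤ → ℤ → ℝ} {m : Pt} {c τ x : ℝ} (hc : 0 < c)
    (hcτ : c ≤ τ) (hx : 0 < x)
    (h : ((c ^ 2) • (1 : Matrix (Ix k) (Ix k) ℝ) - Xg k k A m.1 m.2.1).PosSemidef) :
    rCA C A k m x τ ≤ 2 * rCA C A k m x c := by
  have h1 := phs_half hc hcτ (psd_Xg k (fun y z => A z y) m.2.1 m.1) (capXz hc h)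
  have h1' : (hd k * ((2 : ℝ) • phs (c ^ 2) (Xg k k (fun y z => A z y) m.2.1 m.1) -
      phs (τ ^ 2) (Xg k k (fun y z => A z y) m.2.1 m.1)) * hd k).PosSemidef :=
    psd_conj_symm h1 (PL.H804.hd_symm k)
  have h2 : (phs (x ^ 2) (QW k k (fun x z => C z x) (fun _ => 1) m.2.2 m.1)).PosSemidef := by
    unfold H585.PairCh.phs
    exact (phi_psd ((psd_QW ..).smul (by positivity))).smul (by positivity)
  have h3 := trace_mul_nonneg h2 h1'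
  rw [Matrix.mul_sub, Matrix.sub_mul, Matrix.mul_sub, trace_sub, Matrix.mul_smul,
    Matrix.smul_mul, Matrix.mul_smul, trace_smul, smul_eq_mul] at h3
  unfold H408.rCA
  have h4 : (0 : ℝ) ≤ 4 ^ k := by positivity
  have h5 := mul_le_mul_of_nonneg_left (sub_nonneg.1 h3) h4
  linarith

theorem rt4_le {τ h : ℝ} (hh : 0 < h) (hτ : h ≤ τ) : (τ / h) ^ (1 / 4 : ℝ) ≤ √(τ / h) := by
  rw [Real.sqrt_eq_rpow]
  refine Real.rpow_le_rpow_of_exponent_le ?_ (by norm_num)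
  rw [le_div_iff₀ hh]
  linarith

end fam

/-- **The stage of `SkelTI`.** -/
theorem stageC : StageC 81 := by
  intro κ _ _ J X K s A B C cA cB cC θ τ P₀ PA PB κ' L₀ hcA hA hcB hB hcC hθ hP₀ hPA hPB hκ' hL
    capA capB capC hAB hBC hCA hT
  obtain ⟨L, e, he, hm⟩ := exists_lab κ
  have h4 : (0 : ℝ) < 4 ^ L := by positivity
  have hτ : 0 < τ := hcA.trans_le hA
  rw [UX_nf3 he hm A B C τ τ cC]
  have rt : ∀ {P : ℝ}, 0 ≤ P → ∀ {h : ℝ}, 0 < h → h ≤ τ →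
      4 ^ L * (P * (h ^ 2 * (τ / h) ^ (1 / 4 : ℝ))) ≤ 4 ^ L * P * (h ^ 2 * √(τ / h)) := by
    intro P hP h h0 h1
    rw [mul_assoc]
    exact mul_le_mul_of_nonneg_left (mul_le_mul_of_nonneg_left
      (mul_le_mul_of_nonneg_left (rt4_le h0 h1) (by positivity)) hP) h4.le
  have nBC : ∀ y z : ℝ, 0 ≤ ∑ i ∈ X, ∑ k ∈ Icc 1 K, ∑ m ∈ s i k,
      rBC (B i k m) (C i k m) k m y z := by
    intro y z
    have h := H581.RX_nonneg (I := X) (N := K + L) (s := fun i => sL L (s i))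
      (F := fnB L e B) (H := fnC L e C) (x := y) (y := z)
    rw [RX_BC he hm] at h
    exact (mul_nonneg_iff_of_pos_left h4).1 h
  have nCA : ∀ z x : ℝ, 0 ≤ ∑ i ∈ X, ∑ k ∈ Icc 1 K, ∑ m ∈ s i k,
      rCA (C i k m) (A i k m) k m z x := by
    intro z x
    have h := H581.RX_nonneg (I := X) (N := K + L) (s := fun i => sL L (s i))
      (F := fnC L e C) (H := fnA L A) (x := z) (y := x)
    rw [RX_CA he hm] at h
    exact (mul_nonneg_iff_of_pos_left h4).1 h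
  have main := H228.stageLX (I := X) (N := K + L) (s := fun i => sL L (s i)) (FA := fnA L A)
    (FB := fnB L e B) (FC := fnC L e C) hτ hcC (capX_A hcA hA capA) (capX_B he hm hcB hB capB)
    (capX_C he hm hcC capC) (θ := θ) (P₀ := 4 ^ L * P₀) (PA := 4 ^ L * PA) (PB := 4 ^ L * PB)
    (κ' := 4 ^ L * (2 * κ')) hθ (by positivity) (by positivity) (by positivity) (by positivity)
    (fun h h0 h1 => by
      rw [RX_AB he hm]
      exact (mul_le_mul_of_nonneg_left (hAB h h0 h1) h4.le).trans (rt hP₀ h0 h1))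
    (fun h h0 h1 => by
      rw [RX_BC he hm]
      exact (mul_le_mul_of_nonneg_left (hBC h h0 h1) h4.le).trans (rt hPB h0 h1))
    (fun h h0 h1 => by
      rw [RX_CA he hm]
      exact (mul_le_mul_of_nonneg_left (hCA h h0 h1) h4.le).trans (rt hPA h0 h1))
    (fun x h0 h1 => by
      have hx : 0 < x := (mul_pos hθ hτ).trans_le h0
      rw [RX_BC he hm, RX_CA he hm, sqrt_four, mul_assoc]
      refine mul_le_mul_of_nonneg_left ?_ h4.le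
      have b1 : ∑ i ∈ X, ∑ k ∈ Icc 1 K, ∑ m ∈ s i k, rBC (B i k m) (C i k m) k m τ x ≤
          2 * ∑ i ∈ X, ∑ k ∈ Icc 1 K, ∑ m ∈ s i k, rBC (B i k m) (C i k m) k m cB x := by
        simp only [mul_sum]
        exact sum_le_sum fun i hi => sum_le_sum fun k hk => sum_le_sum fun m hm' =>
          rBC_cap hcB hB hx (capB i hi k hk m hm')
      have b2 : ∑ i ∈ X, ∑ k ∈ Icc 1 K, ∑ m ∈ s i k, rCA (C i k m) (A i k m) k m x τ ≤
          2 * ∑ i ∈ X, ∑ k ∈ Icc 1 K, ∑ m ∈ s i k, rCA (C i k m) (A i k m) k m x cA := by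
        simp only [mul_sum]
        exact sum_le_sum fun i hi => sum_le_sum fun k hk => sum_le_sum fun m hm' =>
          rCA_cap hcA hA hx (capA i hi k hk m hm')
      have b3 := mul_le_mul b1 b2 (nCA _ _) (mul_nonneg (by norm_num) (nBC _ _))
      refine (Real.sqrt_le_sqrt b3).trans ?_
      have b4 := hT x h0 h1
      set U := ∑ i ∈ X, ∑ k ∈ Icc 1 K, ∑ m ∈ s i k, rBC (B i k m) (C i k m) k m cB x
      set V := ∑ i ∈ X, ∑ k ∈ Icc 1 K, ∑ m ∈ s i k, rCA (C i k m) (A i k m) k m x cA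
      rw [show 2 * U * (2 * V) = 2 ^ 2 * (U * V) by ring, Real.sqrt_mul (by norm_num),
        Real.sqrt_sq (by norm_num)]
      linarith)
    (L₀ := L₀) hL
  refine (mul_le_mul_of_nonneg_left main (inv_pos.2 h4).le).trans ?_
  rw [sqrt_four, sqrt_four, sqrt_four]
  have hk : 0 ≤ κ' * (L₀ : ℝ) := by positivity
  have e : (4 ^ L : ℝ)⁻¹ * (81 * (4 ^ L * √(P₀ * PA) + 4 ^ L * √(P₀ * PB) +
      4 ^ L * √(PA * PB) / θ) * τ + 6 * (4 ^ L * (2 * κ')) * L₀) =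
      81 * (√(P₀ * PA) + √(P₀ * PB) + √(PA * PB) / θ) * τ + 12 * (κ' * L₀) := by
    field_simp
    ring
  rw [e]
  linarith

/-- **`H408.StageS`.** -/
theorem stageS : StageS := ⟨81, by norm_num, stageC⟩

/-! ### The part with the slot `Th`, raw version -/

section ti

open scoped Classical

variable {ι : Type} [Fintype ι] [DecidableEq ι]

/-- **The part with the slot `Th` from raw pair sums above `g`.** -/
theorem TTf_leR
    {Al : ℕ → Pt → Prop} {o : ℤ} {K : ℕ} {M : Pt} {sg : ℕ → Pt → ℝ} {be l : ℝ} (hbe : 0 < be)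
    (hl : 0 < l) {u : ℤ → ℤ → ι → ℝ} {A : FamA} {b C : FamV ι}
    {cA cB τ cC P₀ P₁ QA QB Z κ' g σ e₂ : ℝ} {D L₀ L₁ : ℕ}
    (hcA : 0 < cA) (hA : cA ≤ τ) (hcB : 0 < cB) (hB : cB ≤ τ) (hcC : 0 < cC)
    (hP₀ : 0 ≤ P₀) (hQB0 : 0 ≤ QB) (hZ0 : 0 ≤ Z) (hκ : 0 ≤ κ')
    (hDσ : τ / 2 ^ (D - 1) ≤ σ) (hσ : σ ≤ e₂) (hL₀ : cC / 2 ^ (L₀ - 1) ≤ g)
    (hL₁ : cC / 2 ^ (L₁ - 1) ≤ e₂)
    (hcap : Caps Al o K M be l u A b C cA cB cC)
    (hAB : ∀ h, 0 < h → h ≤ τ → PABf be h ι Al o K M sg l u A b C ≤ P₀ * h ^ 2)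
    (hAB' : ∀ h, 0 < h → h ≤ e₂ → PABf be h ι Al o K M sg l u A b C ≤ P₀ * h ^ 2)
    (hT : ∀ x, g ≤ x → x ≤ cC → √(PBCf be τ x ι Al o K M sg l u A b C *
      PCAf be x τ ι Al o K M sg l u A b C) ≤ κ' * x)
    (hQA : PCAf be g τ ι Al o K M sg l u A b C ≤ QA)
    (hQB : PBCf be τ g ι Al o K M sg l u A b C ≤ QB)
    (hCA : ∀ x, e₂ ≤ x → x ≤ g → PCAf be x σ ι Al o K M sg l u A b C ≤ P₁ * x ^ 2)
    (hZB : ∀ h, 0 < h → h ≤ e₂ → PBCf be h h ι Al o K M sg l u A b C ≤ Z * h ^ 2)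
    (hZA : ∀ h, 0 < h → h ≤ e₂ → PCAf be h h ι Al o K M sg l u A b C ≤ Z * h ^ 2) :
    TTf ι Al o K M sg l u A b C ≤ 6 * κ' * L₀ + 6 * D * (√(P₀ * QA) + √(P₀ * QB)) +
      6 * L₁ * √(P₁ * QB) + 54 * (P₀ + Z) * e₂ := by
  unfold H408.PABf at hAB hAB'
  unfold H408.PBCf at hQB hZB
  unfold H408.PCAf at hQA hCA hZA
  unfold H408.PBCf H408.PCAf at hT
  simp only [SN_sigma] at hAB hAB' hQA hQB hCA hZB hZA hT
  have e : TTf ι Al o K M sg l u A b C = SN Al o K M fun x0 k m =>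
      |nf3 (A x0 k) (Bt be l K M.2.1 (KT l u) (o - 2) x0 (b x0 k) k m.1)
        (Ct be l K M.2.1 (KT l u) (o - 2) x0 (C x0 k) k) k m| := by
    unfold H408.TTf H408.SN
    refine sum_congr rfl fun t _ => sum_congr rfl fun x0 _ => sum_congr rfl fun k hk =>
      sum_congr rfl fun m _ => ?_
    exact congrArg abs (ndT_nf3 hbe (fun x => tr_T hl K u x) (o - 2) x0 (A x0 k) (b x0 k) (C x0 k)
      (mem_Icc.1 hk).1 m)
  rw [e, SN_sigma]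
  exact stageR (X := (rt M).sigma fun t => PL.iv K t) (K := K) (s := fun i k => sN Al o K M i.2 k)
    (fun i k _ => A i.2 k) (fun i k m => Bt be l K M.2.1 (KT l u) (o - 2) i.2 (b i.2 k) k m.1)
    (fun i k _ => Ct be l K M.2.1 (KT l u) (o - 2) i.2 (C i.2 k) k)
    hcA hA hcB hB hcC hP₀ hQB0 hZ0 hκ hDσ hσ hL₀ hL₁ (fun i _ k hk m hm => hcap.capA i.2 k hk m hm)
    (fun i _ k hk m hm => hcap.capB i.2 k hk m hm) (fun i _ k hk m hm => hcap.capC i.2 k hk m hm)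
    hAB hAB' hT hQA hQB hCA hZB hZA

end ti

end

end Vale.Agent.P141.H178
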